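import Vale.Agent.P078.Local.Start.Uniform
import Vale.Agent.P078.Local.Graph.Glue

/-!
# The start: uniform laws are valid at `4 / √r` in every net
-/

noncomputable section

namespace Vale.Agent.P078.Local

variable {ι : Type*} [Fintype ι] [DecidableEq ι]

/-- The uniform laws are valid at `4 / √r`. -/
theorem startStmt (r : ℕ) (hr : 16 ≤ r) (D : ℕ) (N : Net ι D) (s : Bool) (T : Finset ι) :
    Valid T (fun (_ : ι) (_ : Fin r) => 1 / (r : ℝ)) (fun _ => 4 / Real.sqrt r) (N.xs s) := by
  have : NeZero r := ⟨by omega⟩
  simp only [one_div]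
  refine valid_uniform hr (N.xs_herm s) (fun l _ => N.xs_diag s l) fun v => ?_
  have h := OpLe.mono (N.opLe_xs s) (Finset.subset_univ T) v
  simpa [formRe, Complex.re_sum] using h

end Vale.Agent.P078.Local
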