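import Vale.Agent.P078.Local.Stable.Cone
import Vale.Agent.P078.Local.Approx.Stieltjes

/-!
# The mixture polynomial along the copies of one site

For a set `K` of sites of pure distinct colours with a common level `a`, the polynomial
`s ↦ q` with `s` added on `K` has all roots in `[-a, 0)`. So, seen from any other site, the
quotient minus its limit is a Stieltjes sum of total weight `M` which is at least `M / a` at zero.
This is the barrier step of the start of the local rule.
-/

noncomputable section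

namespace Vale.Agent.P078.Local

open Polynomial Filter
open scoped Topology ComplexConjugate

variable {ι : Type*} [DecidableEq ι] {r : ℕ}

/-- The point moved by `s` on the sites of `K`. -/
def ray (K : Finset ι) (z : ι → ℝ) (s : ℂ) : ι → ℂ := fun u => (z u : ℂ) + if u ∈ K then s else 0

variable {T V K : Finset ι} {h : ι → Fin r → ℝ} {z : ι → ℝ} {x : ι → ι → ℂ}

theorem ray_zero (K : Finset ι) (z : ι → ℝ) : ray K z 0 = ofR z := by
  funext u; simp [ray, ofR]

theorem ray_empty (z : ι → ℝ) (s : ℂ) : ray ∅ z s = ofR z := by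
  funext u; simp [ray, ofR]

/-- `q` along the ray is a real polynomial with known top two coefficients. -/
theorem exists_rayPoly (hx : ∀ l u, conj (x l u) = x u l) :
    ∀ (V : Finset ι), K ⊆ V → (∀ k ∈ K, ∑ c, h k c = 1) → ∀ z : ι → ℝ,
      ∃ P : ℝ[X], P.natDegree ≤ K.card ∧ P.coeff K.card = qR (V \ K) h z x ∧
        (∀ m, K.card = m + 1 → P.coeff m = ∑ k ∈ K, qR (V \ K.erase k) h (Function.update z k (z k)) x) ∧
        ∀ s : ℂ, aeval s P = q V h (ray K z s) x := by
  induction K using Finset.induction_on with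
  | empty =>
    intro V _ _ z
    refine ⟨C (qR V h z x), by simp, by simp, by simp, fun s => ?_⟩
    rw [aeval_C, ray_empty, q_ofR hx]
    rfl
  | @insert k K hk ih =>
    intro V hV hsum z
    have hkV : k ∈ V := hV (Finset.mem_insert_self _ _)
    have hKV : K ⊆ V := (Finset.subset_insert _ _).trans hV
    have hs' : ∀ u ∈ K, ∑ c, h u c = 1 := fun u hu => hsum u (Finset.mem_insert_of_mem hu)
    obtain ⟨P0, d0, c0, -, e0⟩ := ih V hKV hs' (Function.update z k 0)
    obtain ⟨P1, d1, c1, b1, e1⟩ := ih (V.erase k)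
      (fun u hu => Finset.mem_erase.2 ⟨fun he => hk (he ▸ hu), hKV hu⟩) hs' z
    rw [Finset.card_insert_of_notMem hk]
    refine ⟨P0 + (C (z k) + X) * P1, ?_, ?_, ?_, fun s => ?_⟩
    · refine (natDegree_add_le _ _).trans (max_le (by omega) (natDegree_mul_le.trans ?_))
      have : (C (z k) + X : ℝ[X]).natDegree ≤ 1 := (natDegree_add_le _ _).trans (by simp)
      omega
    · rw [coeff_add, coeff_eq_zero_of_natDegree_lt (by omega : P0.natDegree < K.card + 1),
        add_mul, coeff_add, coeff_C_mul, coeff_X_mul, c1,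
        coeff_eq_zero_of_natDegree_lt (by omega : P1.natDegree < K.card + 1)]
      have : V.erase k \ K = V \ insert k K := by
        ext u; simp only [Finset.mem_sdiff, Finset.mem_erase, Finset.mem_insert]; tauto
      rw [this]; ring
    · intro m hm
      have hm' : m = K.card := by omega
      subst hm'
      have hz : qR (V \ K) h (Function.update z k 0) x + z k * qR (V.erase k \ K) h z x
          = qR (V \ K) h z x := by
        have hk' : k ∈ V \ K := Finset.mem_sdiff.2 ⟨hkV, hk⟩
        have e := congrArg Complex.re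
          (q_split hk' (hsum k (Finset.mem_insert_self _ _)) (ofR z) x)
        rw [Complex.add_re] at e
        have hu : Function.update (ofR z) k 0 = ofR (Function.update z k 0) := by
          funext u; rcases eq_or_ne u k with rfl | hne <;> simp [ofR, *]
        have hee : (V \ K).erase k = V.erase k \ K := by
          ext u; simp only [Finset.mem_sdiff, Finset.mem_erase]; tauto
        rw [hu, q_ofR (T := (V \ K).erase k) hx, show ofR z k = (z k : ℂ) from rfl, ← Complex.ofReal_mul,
          Complex.ofReal_re, hee] at e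
        exact e.symm
      rw [coeff_add, c0, add_mul, coeff_add, coeff_C_mul, c1, Finset.sum_insert hk]
      simp only [Function.update_eq_self, Finset.erase_insert hk]
      have hrest : ((X : ℝ[X]) * P1).coeff K.card =
          ∑ u ∈ K, qR (V \ (insert k K).erase u) h z x := by
        rcases Nat.eq_zero_or_pos K.card with h0 | hpos
        · rw [h0, coeff_X_mul_zero, Finset.card_eq_zero.1 h0, Finset.sum_empty]
        · obtain ⟨j, hj⟩ := Nat.exists_eq_add_of_le' hpos
          rw [hj, coeff_X_mul, b1 j hj]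
          refine Finset.sum_congr rfl fun u hu => ?_
          rw [Function.update_eq_self]
          congr 1
          ext v
          simp only [Finset.mem_sdiff, Finset.mem_erase, Finset.mem_insert]
          have : k ≠ u := fun he => hk (he ▸ hu)
          rcases eq_or_ne v k with rfl | hv <;> simp [*]
      rw [hrest, ← add_assoc, hz]
    · rw [map_add, map_mul, map_add, aeval_C, aeval_X, e0, e1]
      have hu0 : ray K (Function.update z k 0) s = Function.update (ray (insert k K) z s) k 0 := by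
        funext u
        rcases eq_or_ne u k with rfl | hne <;> simp [ray, *]
      have hu1 : q (V.erase k) h (ray K z s) x = q (V.erase k) h (ray (insert k K) z s) x :=
        q_congr (fun _ _ => rfl) (fun u hu => by simp [ray, Finset.ne_of_mem_erase hu])
          fun _ _ _ _ => rfl
      rw [hu0, hu1, q_split hkV (hsum k (Finset.mem_insert_self _ _)) (ray (insert k K) z s) x]
      simp [ray]

theorem ray_ne_zero_of_im (hh : IsLaw V h) (hx : ∀ l u, conj (x l u) = x u l)
    (hV : Valid V h z x) (K : Finset ι) {s : ℂ} (hs : s.im ≠ 0) : q V h (ray K z s) x ≠ 0 := by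
  have hs0 : s ≠ 0 := fun h0 => hs (by simp [h0])
  have him : (s⁻¹).im ≠ 0 := by
    rw [Complex.inv_im]
    exact div_ne_zero (neg_ne_zero.2 hs) (by simpa [Complex.normSq_eq_zero] using hs0)
  have hind : ((fun u => if u ∈ K then (1 : ℂ) else 0), (0 : ι → ι → ℂ)) ∈ realPts ι :=
    ⟨fun l => by dsimp only; split_ifs <;> simp, fun l u => by simp⟩
  have h1 := (isHyp hh).nz_dir hV hind him
  intro h0
  apply h1
  have e : ((fun u => if u ∈ K then (1 : ℂ) else 0), (0 : ι → ι → ℂ)) + s⁻¹ • (ofR z, x)
      = s⁻¹ • (ray K z s, x) := by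
    refine Prod.ext (funext fun u => ?_) (by simp)
    by_cases hu : u ∈ K <;> simp [ray, ofR, hu] <;> field_simp <;> ring
  show q V h _ _ = 0
  rw [e]
  have := (isHyp hh).hom s⁻¹ (ray K z s, x)
  simp only at this
  rw [this, h0, mul_zero]

theorem im_ratio_nonpos (hh : IsLaw V h) (hx : ∀ l u, conj (x l u) = x u l) {j : ι} (hj : j ∈ V)
    {w : ι → ℂ} (hw : ∀ u ∈ V, 0 ≤ (w u).im) (hq : q V h w x ≠ 0) :
    (q (V.erase j) h w x / q V h w x).im ≤ 0 := by
  set we : ℝ → ι → ℂ := fun ε u => w u + (ε : ℂ) * Complex.I with hwe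
  have hc : ∀ U : Finset ι, Continuous fun ε : ℝ => q U h (we ε) x := fun U => by
    refine continuous_finsetSum _ fun c _ => continuous_const.mul (Continuous.matrix_det ?_)
    refine continuous_matrix fun u v => ?_
    simp only [colMatrix, hwe]
    split_ifs <;> fun_prop
  have h0 : we 0 = w := by funext u; simp [hwe]
  have ht : Tendsto (fun ε : ℝ => (q (V.erase j) h (we ε) x / q V h (we ε) x).im) (𝓝[>] 0)
      (𝓝 (q (V.erase j) h w x / q V h w x).im) := by
    have := ((hc (V.erase j)).continuousAt.div (hc V).continuousAt (by rwa [h0])).tendsto.mono_left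
      (nhdsWithin_le_nhds (a := (0 : ℝ)) (s := Set.Ioi 0))
    simp only [Pi.div_apply, h0] at this
    exact (Complex.continuous_im.tendsto _).comp this
  refine le_of_tendsto ht ?_
  filter_upwards [self_mem_nhdsWithin] with ε (hε : 0 < ε)
  have hpos : ∀ u ∈ V, 0 < (we ε u).im := fun u hu => by
    have := hw u hu
    simp [hwe]; linarith
  set A := q (V.erase j) h (we ε) x with hA
  set R := q V h (Function.update (we ε) j 0) x with hR
  have hA0 : A ≠ 0 := q_ne_zero (hh.mono (Finset.erase_subset _ _))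
    (fun u hu => hpos u (Finset.mem_of_mem_erase hu)) fun l _ u _ => hx l u
  have hroot : ∀ v : ℂ, 0 < v.im → R + v * A ≠ 0 := by
    intro v hv
    rw [hR, hA, ← q_update hj (hh j hj).2]
    refine q_ne_zero hh (fun u hu => ?_) fun l _ u _ => hx l u
    rcases eq_or_ne u j with rfl | hne
    · simpa using hv
    · simpa [Function.update_of_ne hne] using hpos u hu
  have hb : (-(R / A)).im ≤ 0 := not_lt.1 fun hc' => hroot _ hc' (by field_simp; ring)
  rw [q_split hj (hh j hj).2, ← hA, ← hR]
  have e : A / (R + we ε j * A) = (R / A + we ε j)⁻¹ := by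
    rw [div_add' _ _ _ hA0, inv_div]
  rw [e, Complex.inv_im, Complex.add_im]
  rw [Complex.neg_im] at hb
  exact div_nonpos_of_nonpos_of_nonneg (by linarith [hpos j hj]) (Complex.normSq_nonneg _)

/-- A polynomial with positive coefficient at its degree and no root up to `b` has the sign of
its degree there. -/
theorem sign_left {P : ℝ[X]} {n : ℕ} (hd : P.natDegree ≤ n) (hc : 0 < P.coeff n) {b : ℝ}
    (hno : ∀ s ≤ b, P.eval s ≠ 0) : ∀ s ≤ b, 0 < (-1 : ℝ) ^ n * P.eval s := by
  intro s hs
  by_contra hle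
  rw [not_lt] at hle
  have hev : ∀ᶠ t in atBot, 0 < (-1 : ℝ) ^ n * P.eval t := by
    rcases Nat.eq_zero_or_pos n with rfl | hn
    · refine Eventually.of_forall fun t => ?_
      rw [eq_C_of_natDegree_le_zero hd]
      simpa using hc
    have hdeg : P.natDegree = n := le_antisymm hd (le_natDegree_of_ne_zero hc.ne')
    set R : ℝ[X] := C ((-1 : ℝ) ^ n) * P.comp (-X) with hRdef
    have hRd : R.natDegree = n := by
      rw [hRdef, natDegree_C_mul (pow_ne_zero _ (by norm_num)), natDegree_comp, natDegree_neg,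
        natDegree_X, mul_one, hdeg]
    have hRlc : 0 ≤ R.leadingCoeff := by
      rw [hRdef, leadingCoeff_mul, leadingCoeff_C, leadingCoeff_comp (by simp)]
      rw [leadingCoeff_neg, leadingCoeff_X, hdeg, leadingCoeff, hdeg]
      rw [← mul_assoc, mul_comm ((-1 : ℝ) ^ n) (P.coeff n), mul_assoc, ← mul_pow]
      simpa using hc.le
    have hRdeg : 0 < R.degree := natDegree_pos_iff_degree_pos.1 (hRd ▸ hn)
    have ht := (tendsto_atTop_of_leadingCoeff_nonneg R hRdeg hRlc).eventually (eventually_gt_atTop 0)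
    have ht' := tendsto_neg_atBot_atTop.eventually ht
    filter_upwards [ht'] with t ht
    simpa [hRdef, eval_comp] using ht
  obtain ⟨t, ht, hts⟩ := (hev.and (eventually_le_atBot s)).exists
  obtain ⟨u, hu, hu0⟩ := intermediate_value_Icc' hts
    (f := fun t => (-1 : ℝ) ^ n * P.eval t) (by fun_prop) (Set.mem_Icc.2 ⟨hle, ht.le⟩)
  exact hno u (hu.2.trans hs) ((mul_eq_zero.1 hu0).resolve_left (pow_ne_zero _ (by norm_num)))

/-- The quotient along the ray, minus its limit, is a Stieltjes sum. -/
theorem exists_ray_St (hx : ∀ l u, conj (x l u) = x u l) (hh : IsLaw V h) (hKV : K ⊆ V) {j : ι}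
    (hj : j ∈ V) (hjK : j ∉ K) (hV : Valid V h z x) (hA : qR (V \ K) h z x ≠ 0) {P Q : ℝ[X]}
    (hPd : P.natDegree ≤ K.card) (hPc : P.coeff K.card = qR (V \ K) h z x)
    (hPe : ∀ s : ℂ, aeval s P = q V h (ray K z s) x) (hQd : Q.natDegree ≤ K.card)
    (hQc : Q.coeff K.card = qR (V.erase j \ K) h z x)
    (hQe : ∀ s : ℂ, aeval s Q = q (V.erase j) h (ray K z s) x) :
    ∃ (n : ℕ) (w lam : Fin n → ℝ), (∀ i, 0 ≤ w i) ∧ (∀ i, P.eval (lam i) = 0) ∧
      (∀ m, K.card = m + 1 → ∑ i, w i =
        (Q.coeff m - qR (V.erase j \ K) h z x / qR (V \ K) h z x * P.coeff m) / qR (V \ K) h z x) ∧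
      ∀ s, P.eval s ≠ 0 →
        Q.eval s / P.eval s - qR (V.erase j \ K) h z x / qR (V \ K) h z x = StSum w lam s := by
  set A := qR (V \ K) h z x
  set c := qR (V.erase j \ K) h z x / A with hc
  have hdeg : P.natDegree = K.card := le_antisymm hPd (le_natDegree_of_ne_zero (hPc ▸ hA))
  have hPm : (C A⁻¹ * P).Monic := by
    rw [Monic, leadingCoeff_mul, leadingCoeff_C, leadingCoeff, hdeg, hPc, inv_mul_cancel₀ hA]
  have hPmd : (C A⁻¹ * P).natDegree = K.card := by
    rw [natDegree_C_mul (inv_ne_zero hA), hdeg]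
  have hQn : (C A⁻¹ * (Q - C c * P)).degree < (C A⁻¹ * P).degree := by
    rw [degree_eq_natDegree hPm.ne_zero, hPmd, degree_lt_iff_coeff_zero]
    intro m hm
    rw [coeff_C_mul, coeff_sub, coeff_C_mul]
    rcases Nat.lt_or_eq_of_le hm with h1 | rfl
    · rw [coeff_eq_zero_of_natDegree_lt (hQd.trans_lt h1),
        coeff_eq_zero_of_natDegree_lt (hPd.trans_lt h1)]
      ring
    · rw [hQc, hPc, hc, div_mul_cancel₀ _ hA, sub_self, mul_zero]
  have hval : ∀ s : ℂ, aeval s P ≠ 0 → aeval s (C A⁻¹ * (Q - C c * P)) / aeval s (C A⁻¹ * P)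
      = q (V.erase j) h (ray K z s) x / q V h (ray K z s) x - (c : ℂ) := by
    intro s hs
    rw [map_mul, map_mul, map_sub, map_mul, aeval_C, aeval_C, ← hPe, ← hQe,
      mul_div_mul_left _ _ (by simpa using hA), sub_div, mul_div_assoc, div_self hs, mul_one]
    rfl
  obtain ⟨n, w, lam, hw, hl, hs, hf⟩ := exists_St hPm hQn
    (fun s hs => by
      rw [map_mul, aeval_C, hPe]
      exact mul_ne_zero (by simpa using hA) (ray_ne_zero_of_im hh hx hV K hs.ne'))
    (fun s hs => by
      have hq := ray_ne_zero_of_im hh hx hV K hs.ne'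
      rw [hval s (by rw [hPe]; exact hq), Complex.sub_im, Complex.ofReal_im, sub_zero]
      refine im_ratio_nonpos hh hx hj (fun u _ => ?_) hq
      simp only [ray]
      split_ifs <;> simp [hs.le])
  refine ⟨n, w, lam, hw, fun i => ?_, fun m hm => ?_, fun s hPs => ?_⟩
  · have := hl i
    rw [eval_mul, eval_C] at this
    exact (mul_eq_zero.1 this).resolve_left (inv_ne_zero hA)
  · rw [hs, hPmd, hm, Nat.add_sub_cancel, coeff_C_mul, coeff_sub, coeff_C_mul, ← div_eq_inv_mul]
  · rw [← hf s (by rw [eval_mul, eval_C]; exact mul_ne_zero (inv_ne_zero hA) hPs)]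
    simp only [eval_mul, eval_sub, eval_C]
    field_simp

theorem inCone_ray (hh : IsLaw V h) (hV : Valid V h z x) (K : Finset ι) {s : ℝ} (hs : 0 ≤ s) :
    q V h (ray K z s) x ≠ 0 := by
  have hv : ∀ ε : ℝ, 0 < ε →
      ((fun u => if u ∈ K then (s : ℂ) else 0), (0 : ι → ι → ℂ)) + (ε : ℂ) • unit ι ∈
        IsHyp.cone (fun v : (ι → ℂ) × (ι → ι → ℂ) => q V h v.1 v.2) (realPts ι) (unit ι) := by
    intro ε hε
    refine ⟨⟨fun l => ?_, fun l u => by simp [unit]⟩, fun t ht => ?_⟩
    · by_cases hl : l ∈ K <;> simp [unit, hl]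
    · set d : ι → ℝ := fun u => (if u ∈ K then s else 0) + ε + t with hd
      have e : ((fun u => if u ∈ K then (s : ℂ) else 0), (0 : ι → ι → ℂ)) + (ε : ℂ) • unit ι
          + (t : ℂ) • unit ι = (ofR d, 0) := by
        refine Prod.ext (funext fun u => ?_) (by simp [unit])
        by_cases hu : u ∈ K <;> simp [unit, ofR, hd, hu]
      show q V h _ _ ≠ 0
      rw [e]
      have : ∀ c : V → Fin r, (colMatrix V c (ofR d) (0 : ι → ι → ℂ)).det
          = ∏ a : V, (d a : ℂ) := by
        intro c
        rw [← Matrix.det_diagonal]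
        congr 1
        ext a b
        simp [colMatrix, Matrix.diagonal_apply, ofR]
      simp only [q, this, ← Finset.sum_mul]
      rw [← Fintype.prod_sum (fun (a : V) k => (h a k : ℂ))]
      refine mul_ne_zero (Finset.prod_ne_zero_iff.2 fun a _ => ?_)
        (Finset.prod_ne_zero_iff.2 fun a _ => ?_)
      · rw [← Complex.ofReal_sum, (hh a a.2).2]
        simp
      · have : 0 < d a := by
          simp only [hd]; split_ifs <;> linarith
        exact_mod_cast this.ne'
  have h1 := IsHyp.ne_zero_of_mem ((isHyp hh).add_mem_of_closed hV hv)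
  have e : (ofR z, x) + ((fun u => if u ∈ K then (s : ℂ) else 0), (0 : ι → ι → ℂ))
      = (ray K z s, x) := Prod.ext rfl (by simp)
  rw [e] at h1
  exact h1

/-- Pure distinct colours with zero diagonal give a diagonal matrix. -/
theorem q_of_distinct {col : ι → Fin r} (hK : ∀ k ∈ K, h k = Pi.single (col k) 1)
    (hinj : Set.InjOn col K) (h0 : ∀ k ∈ K, x k k = 0) (w : ι → ℂ) :
    q K h w x = ∏ k : K, w k := by
  rw [q, Finset.sum_eq_single fun k : K => col k]
  · have h1 : (∏ a : K, (h a (col a) : ℂ)) = 1 :=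
      Finset.prod_eq_one fun a _ => by simp [hK a a.2]
    rw [h1, one_mul, ← Matrix.det_diagonal]
    congr 1
    ext a b
    rcases eq_or_ne a b with rfl | hab
    · simp [colMatrix, h0 a a.2]
    · have : col a ≠ col b := fun he => hab (Subtype.ext (hinj a.2 b.2 he))
      simp [colMatrix, hab, this]
  · intro d _ hd
    obtain ⟨a, ha⟩ := Function.ne_iff.1 hd
    rw [Finset.prod_eq_zero (Finset.mem_univ a) (by simp [hK a a.2, Pi.single_eq_of_ne ha]),
      zero_mul]
  · simp

/-- The hypotheses of a barrier step: copies `K` with pure distinct colours at level `a`, all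
subsets of `T` positive. -/
structure Copies (T K : Finset ι) (h : ι → Fin r → ℝ) (z : ι → ℝ) (x : ι → ι → ℂ) (a : ℝ)
    (col : ι → Fin r) : Prop where
  law : IsLaw T h
  herm : ∀ l u, conj (x l u) = x u l
  sub : K ⊆ T
  pure : ∀ k ∈ K, h k = Pi.single (col k) 1
  inj : Set.InjOn col K
  diag : ∀ k ∈ K, x k k = 0
  level : ∀ k ∈ K, z k = a
  apos : 0 < a
  valid : Valid T h z x

theorem Copies.mono {a : ℝ} {col : ι → Fin r} (hC : Copies T K h z x a col) {K' T' : Finset ι}
    (hK : K' ⊆ K) (hT : T' ⊆ T) (hKT : K' ⊆ T') : Copies T' K' h z x a col where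
  law := hC.law.mono hT
  herm := hC.herm
  sub := hKT
  pure := fun k hk => hC.pure k (hK hk)
  inj := hC.inj.mono hK
  diag := fun k hk => hC.diag k (hK hk)
  level := fun k hk => hC.level k (hK hk)
  apos := hC.apos
  valid := hC.valid.subset hC.law hT

theorem Copies.pos {a : ℝ} {col : ι → Fin r} (hC : Copies T K h z x a col) :
    ∀ W ⊆ T, 0 < qR W h z x := fun _ hW =>
  (hC.valid.subset hC.law hW).pos (hC.law.mono hW)

/-- All roots along the ray are at least `-a`. -/
theorem Copies.ray_ne_left {a : ℝ} {col : ι → Fin r} (hC : Copies T K h z x a col) {s : ℝ}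
    (hs : s < -a) : q T h (ray K z s) x ≠ 0 := by
  induction hn : (T \ K).card generalizing T s with
  | zero =>
    have hTK : T = K := le_antisymm
      (Finset.sdiff_eq_empty_iff_subset.1 (Finset.card_eq_zero.1 hn)) hC.sub
    subst hTK
    rw [q_of_distinct hC.pure hC.inj hC.diag]
    refine Finset.prod_ne_zero_iff.2 fun k _ => ?_
    simp only [ray, if_pos k.2, hC.level k k.2]
    rw [← Complex.ofReal_add]
    exact_mod_cast (by linarith : a + s < 0).ne
  | succ n ih =>
    obtain ⟨u, hu⟩ := Finset.card_pos.1 (by omega : 0 < (T \ K).card)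
    obtain ⟨huT, huK⟩ := Finset.mem_sdiff.1 hu
    have hKe : K ⊆ T.erase u := fun k hk => Finset.mem_erase.2 ⟨fun he => huK (he ▸ hk), hC.sub hk⟩
    have hC' := hC.mono subset_rfl (Finset.erase_subset u T) hKe
    have hcard : (T.erase u \ K).card = n := by
      rw [Finset.erase_sdiff_comm, Finset.card_erase_of_mem hu]; omega
    have hsum : ∀ k ∈ K, ∑ c, h k c = 1 := fun k hk => (hC.law k (hC.sub hk)).2
    obtain ⟨P, Pd, Pc, -, Pe⟩ := exists_rayPoly hC.herm T hC.sub hsum z
    obtain ⟨Q, Qd, Qc, -, Qe⟩ := exists_rayPoly hC.herm (T.erase u) hKe hsum z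
    have hA : 0 < qR (T \ K) h z x := hC.pos _ Finset.sdiff_subset
    have hA' : 0 < qR (T.erase u \ K) h z x :=
      hC.pos _ (Finset.sdiff_subset.trans (Finset.erase_subset _ _))
    have hQno : ∀ t : ℝ, t < -a → Q.eval t ≠ 0 := fun t ht h0 =>
      ih hC' ht hcard (by rw [← Qe, aeval_ofReal, h0, Complex.ofReal_zero])
    suffices hP : P.eval s ≠ 0 by rw [← Pe, aeval_ofReal]; exact_mod_cast hP
    intro hPs
    have hP0 : P ≠ 0 := fun h0 => hA.ne' (by rw [← Pc, h0, coeff_zero])
    obtain ⟨l0, hl0, hmin⟩ := P.roots.toFinset.exists_min_image id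
      ⟨s, Multiset.mem_toFinset.2 ((mem_roots hP0).2 hPs)⟩
    have hl0a : l0 < -a :=
      (hmin s (Multiset.mem_toFinset.2 ((mem_roots hP0).2 hPs))).trans_lt hs
    have hPno : ∀ t < l0, P.eval t ≠ 0 := fun t ht h0 => not_le.2 ht
      (hmin t (Multiset.mem_toFinset.2 ((mem_roots hP0).2 h0)))
    obtain ⟨m, w, lam, hw, hlam, -, hf⟩ := exists_ray_St hC.herm hC.law hC.sub huT huK
      hC.valid hA.ne' Pd Pc Pe Qd Qc Qe
    set c := qR (T.erase u \ K) h z x / qR (T \ K) h z x with hc
    have hle : ∀ t < l0,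
        (-1 : ℝ) ^ K.card * Q.eval t ≤ c * ((-1 : ℝ) ^ K.card * P.eval t) := by
      intro t ht
      have hp := sign_left Pd (Pc ▸ hA) (b := t) (fun v hv => hPno v (hv.trans_lt ht)) t le_rfl
      have hst : StSum w lam t ≤ 0 := Finset.sum_nonpos fun i _ =>
        div_nonpos_of_nonneg_of_nonpos (hw i) (by
          have := hmin (lam i) (Multiset.mem_toFinset.2 ((mem_roots hP0).2 (hlam i)))
          simp only [id] at this
          linarith)
      have e : Q.eval t / P.eval t ≤ c := by have := hf t (hPno t ht); linarith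
      have hne := hPno t ht
      calc (-1 : ℝ) ^ K.card * Q.eval t
          = Q.eval t / P.eval t * ((-1 : ℝ) ^ K.card * P.eval t) := by field_simp
        _ ≤ _ := mul_le_mul_of_nonneg_right e hp.le
    have hlim : (-1 : ℝ) ^ K.card * Q.eval l0 ≤ c * ((-1 : ℝ) ^ K.card * P.eval l0) :=
      le_of_tendsto_of_tendsto (f := fun t => (-1 : ℝ) ^ K.card * Q.eval t)
        (g := fun t => c * ((-1 : ℝ) ^ K.card * P.eval t)) (b := 𝓝[<] l0)
        ((Continuous.tendsto (by fun_prop) l0).mono_left nhdsWithin_le_nhds)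
        ((Continuous.tendsto (by fun_prop) l0).mono_left nhdsWithin_le_nhds)
        (eventually_nhdsWithin_of_forall hle)
    rw [(mem_roots hP0).1 (Multiset.mem_toFinset.1 hl0), mul_zero, mul_zero] at hlim
    exact absurd hlim (not_le.2 (sign_left Qd (Qc ▸ hA') (b := l0)
      (fun v hv => hQno v (hv.trans_lt hl0a)) l0 le_rfl))

/-- The barrier inequality: seen from `j`, the copies weigh at least their total mass over `a`. -/
theorem Copies.ratio_ge {a : ℝ} {col : ι → Fin r} (hC : Copies T K h z x a col) {j : ι}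
    (hj : j ∈ T) (hjK : j ∉ K) {m : ℕ} (hm : K.card = m + 1) :
    let A := qR (T \ K) h z x
    let c := qR (T.erase j \ K) h z x / A
    let M := ∑ k ∈ K, qR (T.erase j \ K.erase k) h z x - c * ∑ k ∈ K, qR (T \ K.erase k) h z x
    0 ≤ M ∧ M / A / a ≤ qR (T.erase j) h z x / qR T h z x - c := by
  intro A c M
  have hKe : K ⊆ T.erase j := fun k hk => Finset.mem_erase.2 ⟨fun he => hjK (he ▸ hk), hC.sub hk⟩
  have hsum : ∀ k ∈ K, ∑ c, h k c = 1 := fun k hk => (hC.law k (hC.sub hk)).2
  obtain ⟨P, Pd, Pc, Pb, Pe⟩ := exists_rayPoly hC.herm T hC.sub hsum z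
  obtain ⟨Q, Qd, Qc, Qb, Qe⟩ := exists_rayPoly hC.herm (T.erase j) hKe hsum z
  have hA : 0 < A := hC.pos _ Finset.sdiff_subset
  obtain ⟨n, w, lam, hw, hlam, hs, hf⟩ := exists_ray_St hC.herm hC.law hC.sub hj hjK
    hC.valid hA.ne' Pd Pc Pe Qd Qc Qe
  have hev : ∀ (W : Finset ι) (R : ℝ[X]), (∀ s : ℂ, aeval s R = q W h (ray K z s) x) →
      R.eval 0 = qR W h z x := by
    intro W R hR
    have h1 := hR ((0 : ℝ) : ℂ)
    rw [aeval_ofReal, Complex.ofReal_zero, ray_zero, q_ofR hC.herm] at h1
    exact_mod_cast h1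
  have hP0 : P.eval 0 ≠ 0 := by rw [hev T P Pe]; exact (hC.pos T subset_rfl).ne'
  have hroot : ∀ i, lam i < 0 ∧ -a ≤ lam i := by
    intro i
    constructor
    · by_contra hle
      exact inCone_ray hC.law hC.valid K (not_lt.1 hle)
        (by rw [← Pe, aeval_ofReal, hlam i, Complex.ofReal_zero])
    · by_contra hle
      exact hC.ray_ne_left (not_le.1 hle)
        (by rw [← Pe, aeval_ofReal, hlam i, Complex.ofReal_zero])
  have hM : ∑ i, w i = M / A := by
    rw [hs m hm, Qb m hm, Pb m hm]
    simp only [Function.update_eq_self]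
    rfl
  refine ⟨?_, ?_⟩
  · have : 0 ≤ M / A := hM ▸ Finset.sum_nonneg fun i _ => hw i
    exact nonneg_of_mul_nonneg_left (by rwa [div_eq_mul_inv] at this) (inv_pos.2 hA)
  · rw [← hM, ← hev (T.erase j) Q Qe, ← hev T P Pe, hf 0 hP0, Finset.sum_div]
    refine Finset.sum_le_sum fun i _ => ?_
    obtain ⟨h1, h2⟩ := hroot i
    exact div_le_div_of_nonneg_left (hw i) (by linarith) (by linarith)

end Vale.Agent.P078.Local
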