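import Vale.Agent.P078.Local.Start.Ray

/-!
# The start of the local rule: the uniform law is valid at `4 / √r`

Every site starts as `r` copies of pure colours at the level `√r`. Merging the copies of one site
into one site of uniform law at the level `4 / √r` keeps validity and does not raise any barrier,
by the inequality of `Ray`. This replaces the mixed characteristic polynomial bound.
-/

noncomputable section

namespace Vale.Agent.P078.Local

open scoped ComplexConjugate

variable {ι κ : Type*} [DecidableEq ι] [DecidableEq κ] {r : ℕ}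

/-- The sites of an image, as a type. -/
def mapSubEquiv (T : Finset κ) (f : κ ↪ ι) : T ≃ ↥(T.map f) :=
  Equiv.ofBijective (fun a => ⟨f a, Finset.mem_map_of_mem f a.2⟩)
    ⟨fun a b hab => Subtype.ext (f.injective (congrArg Subtype.val hab)), fun b => by
      obtain ⟨a, ha, hab⟩ := Finset.mem_map.1 b.2
      exact ⟨⟨a, ha⟩, Subtype.ext hab⟩⟩

/-- `q` does not see the names of the sites. -/
theorem q_map (T : Finset κ) (f : κ ↪ ι) (h : ι → Fin r → ℝ) (z : ι → ℂ) (x : ι → ι → ℂ) :
    q (T.map f) h z x
      = q T (fun a => h (f a)) (fun a => z (f a)) (fun a b => x (f a) (f b)) := by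
  have happ : ∀ a : T, ((mapSubEquiv T f a : ↥(T.map f)) : ι) = f a := fun _ => rfl
  simp only [q]
  rw [← Equiv.sum_comp ((mapSubEquiv T f).arrowCongr (Equiv.refl (Fin r)))]
  refine Finset.sum_congr rfl fun c _ => ?_
  congr 1
  · rw [← Equiv.prod_comp (mapSubEquiv T f)]
    exact Finset.prod_congr rfl fun a _ => by simp [happ]
  · rw [← Matrix.det_submatrix_equiv_self (mapSubEquiv T f)]
    congr 1
    ext a b
    simp [colMatrix, happ, Subtype.coe_inj]

theorem qR_map (T : Finset κ) (f : κ ↪ ι) (h : ι → Fin r → ℝ) (Z : ι → ℝ) (x : ι → ι → ℂ) :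
    qR (T.map f) h Z x
      = qR T (fun a => h (f a)) (fun a => Z (f a)) (fun a b => x (f a) (f b)) := by
  simp only [qR, q_map]
  rfl

/-- A pure configuration is valid when each of its pinchings is below the levels. -/
theorem valid_of_form {T : Finset ι} {h : ι → Fin r → ℝ} {Z : ι → ℝ} {x : ι → ι → ℂ}
    (hx : IsHerm x) {col : ι → Fin r} (hh : ∀ u ∈ T, h u = Pi.single (col u) 1)
    (hform : ∀ v : T → ℂ, v ≠ 0 →
      (∑ a : T, ∑ b : T, if col a = col b then (conj (v a) * x a b * v b).re else 0)
        < ∑ a : T, Z a * Complex.normSq (v a)) :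
    Valid T h Z x := by
  refine valid_iff.2 ⟨hx, fun t ht => ?_⟩
  rw [q, Finset.sum_eq_single fun a : T => col a]
  · refine mul_ne_zero (Finset.prod_ne_zero_iff.2 fun a _ => by simp [hh a a.2]) ?_
    intro hdet
    obtain ⟨v, hv, hzero⟩ := Matrix.exists_mulVec_eq_zero_iff.2 hdet
    have hrow : ∀ a : T, ((Z a + t : ℝ) : ℂ) * v a
        = ∑ b : T, if col a = col b then x a b * v b else 0 := by
      intro a
      have h1 := congrFun hzero a
      simp only [Matrix.mulVec, dotProduct, colMatrix, sub_mul, Finset.sum_sub_distrib, ite_mul,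
        zero_mul, Finset.sum_ite_eq, Finset.mem_univ, if_true, Pi.zero_apply, sub_eq_zero] at h1
      simpa [ofR] using h1
    have key : ∀ a : T, (Z a + t) * Complex.normSq (v a)
        = ∑ b : T, if col a = col b then (conj (v a) * x a b * v b).re else 0 := by
      intro a
      have h1 := congrArg (fun w : ℂ => (conj (v a) * w).re) (hrow a)
      simp only [Finset.mul_sum, Complex.re_sum] at h1
      rw [show conj (v a) * (((Z a + t : ℝ) : ℂ) * v a)
        = (((Z a + t) * Complex.normSq (v a) : ℝ) : ℂ) by
          rw [Complex.ofReal_mul, Complex.normSq_eq_conj_mul_self]; ring, Complex.ofReal_re] at h1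
      rw [h1]
      refine Finset.sum_congr rfl fun b _ => ?_
      split_ifs <;> simp [mul_assoc]
    have h2 := hform v hv
    simp only [← key] at h2
    exact not_le.2 h2 (Finset.sum_le_sum fun a _ =>
      mul_le_mul_of_nonneg_right (by linarith) (Complex.normSq_nonneg _))
  · intro d _ hd
    obtain ⟨a, ha⟩ := Function.ne_iff.1 hd
    rw [Finset.prod_eq_zero (Finset.mem_univ a) (by simp [hh a a.2, Pi.single_eq_of_ne ha]),
      zero_mul]
  · simp

/-- The quadratic form of `x` on `T`. -/
def formRe (T : Finset ι) (x : ι → ι → ℂ) (v : ι → ℂ) : ℝ :=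
  ∑ a ∈ T, ∑ b ∈ T, (conj (v a) * x a b * v b).re

/-- Lowering one level to `e` keeps a contraction with zero diagonal below the levels `a`. -/
theorem formRe_le {T : Finset ι} {x : ι → ι → ℂ} {l : ι} (hl : l ∈ T) (hd : x l l = 0)
    (hbd : ∀ v : ι → ℂ, |formRe T x v| ≤ ∑ u ∈ T, Complex.normSq (v u)) {e : ℝ} (he : 0 < e)
    (v : ι → ℂ) :
    formRe T x v ≤ e * Complex.normSq (v l)
      + (1 + 2 / e) * ∑ u ∈ T.erase l, Complex.normSq (v u) := by
  set n' := ∑ u ∈ T.erase l, Complex.normSq (v u)
  set F0 := formRe (T.erase l) x v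
  set C := ∑ b ∈ T.erase l, ((conj (v l) * x l b * v b).re + (conj (v b) * x b l * v l).re)
  have hscale : ∀ σ : ℝ, formRe T x (Function.update v l ((σ : ℂ) * v l)) = F0 + σ * C := by
    intro σ
    simp only [formRe]
    rw [← Finset.add_sum_erase T _ hl]
    simp only [← Finset.add_sum_erase T _ hl, hd, mul_zero, zero_mul, Complex.zero_re, zero_add]
    rw [Finset.sum_add_distrib, ← add_assoc, add_comm F0]
    congr 1
    · simp only [C, Finset.mul_sum, ← Finset.sum_add_distrib]
      refine Finset.sum_congr rfl fun b hb => ?_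
      simp [Function.update_of_ne (Finset.ne_of_mem_erase hb)]
      ring
    · refine Finset.sum_congr rfl fun a ha => Finset.sum_congr rfl fun b hb => ?_
      simp [Function.update_of_ne (Finset.ne_of_mem_erase hb),
        Function.update_of_ne (Finset.ne_of_mem_erase ha)]
  have hnorm : ∀ σ : ℝ,
      ∑ u ∈ T, Complex.normSq (Function.update v l ((σ : ℂ) * v l) u)
        = σ ^ 2 * Complex.normSq (v l) + n' := by
    intro σ
    rw [← Finset.add_sum_erase T _ hl]
    congr 1
    · simp [Complex.normSq_mul, Complex.normSq_ofReal, sq]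
    · exact Finset.sum_congr rfl fun u hu => by
        rw [Function.update_of_ne (Finset.ne_of_mem_erase hu)]
  have h0 := hbd (Function.update v l (((0 : ℝ) : ℂ) * v l))
  have h1 := hbd (Function.update v l ((e : ℂ) * v l))
  rw [hscale, hnorm, abs_le] at h0 h1
  have hv : formRe T x v = F0 + 1 * C := by simpa using hscale 1
  rw [hv]
  have : C ≤ e * Complex.normSq (v l) + 2 / e * n' := by
    refine le_of_mul_le_mul_left ?_ he
    have : e * (e * Complex.normSq (v l) + 2 / e * n') = e ^ 2 * Complex.normSq (v l) + 2 * n' := by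
      field_simp
    linarith
  have : F0 ≤ n' := by linarith
  linarith

section start

variable [NeZero r]

/-- The sites after merging the sites of `M`. -/
def copySet (T M : Finset ι) : Finset (ι × Fin r) :=
  (T ×ˢ Finset.univ).filter fun p => p.1 ∈ M → p.2 = 0

/-- Uniform on merged sites, pure on copies. -/
def copyLaw (M : Finset ι) (p : ι × Fin r) : Fin r → ℝ :=
  if p.1 ∈ M then fun _ => (r : ℝ)⁻¹ else Pi.single p.2 1

/-- The levels. -/
def copyLevel (M : Finset ι) (w a : ℝ) (p : ι × Fin r) : ℝ := if p.1 ∈ M then w else a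

theorem sum_uniform : ∑ _c : Fin r, (r : ℝ)⁻¹ = 1 := by
  simp [mul_inv_cancel₀ (show (r : ℝ) ≠ 0 from Nat.cast_ne_zero.2 (NeZero.ne r))]

theorem copyLaw_isLaw (S : Finset (ι × Fin r)) (M : Finset ι) : IsLaw S (copyLaw M) := by
  intro p _
  unfold copyLaw
  split_ifs
  · exact ⟨fun _ => by positivity, sum_uniform⟩
  · refine ⟨fun c => ?_, by simp⟩
    rcases eq_or_ne c p.2 with rfl | hne <;> simp [*]

/-- The uniform law is valid at `4 / √r` for every Hermitian contraction with zero diagonal. -/
theorem valid_uniform (hr : 16 ≤ r) {T : Finset ι} {x : ι → ι → ℂ} (hx : IsHerm x)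
    (hd : ∀ l ∈ T, x l l = 0)
    (hbd : ∀ v : ι → ℂ, |formRe T x v| ≤ ∑ u ∈ T, Complex.normSq (v u)) :
    Valid T (fun _ (_ : Fin r) => (r : ℝ)⁻¹) (fun _ => 4 / Real.sqrt r) x := by
  set a := Real.sqrt r with ha
  have hr0 : (0 : ℝ) < r := Nat.cast_pos.2 (by omega)
  have ha4 : 4 ≤ a := by
    rw [ha, show (4 : ℝ) = Real.sqrt 16 by
      rw [show (16 : ℝ) = 4 ^ 2 by norm_num, Real.sqrt_sq (by norm_num : (0 : ℝ) ≤ 4)]]
    exact Real.sqrt_le_sqrt (by exact_mod_cast hr)
  have ha0 : 0 < a := by linarith
  have haa : a * a = r := Real.mul_self_sqrt hr0.le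
  set e := 3 / a with he
  set w := 4 / a with hw
  have hwe : w = a / r + e := by
    rw [hw, he, ← haa]; field_simp; ring
  set y : ι × Fin r → ι × Fin r → ℂ := fun p q => x p.1 q.1 with hy
  have hyh : IsHerm y := fun p q => hx p.1 q.1
  set S : Finset ι → Finset (ι × Fin r) := fun M => copySet T M with hS
  suffices key : ∀ M ⊆ T, Valid (S M) (copyLaw M) (copyLevel M w a) y ∧
      ∀ k ∈ S M, k.1 ∉ M → (a - e) * qR ((S M).erase k) (copyLaw M) (copyLevel M w a) y
        ≤ qR (S M) (copyLaw M) (copyLevel M w a) y by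
    obtain ⟨hv, -⟩ := key T subset_rfl
    let f : ι ↪ ι × Fin r := ⟨fun u => (u, 0), fun _ _ h => (Prod.ext_iff.1 h).1⟩
    have hf : ∀ u, f u = (u, 0) := fun _ => rfl
    have hST : S T = T.map f := by
      ext ⟨u, c⟩
      simp only [hS, copySet, Finset.mem_filter, Finset.mem_product, Finset.mem_univ, and_true,
        Finset.mem_map, hf, Prod.mk.injEq]
      exact ⟨fun ⟨hu, hc⟩ => ⟨u, hu, rfl, (hc hu).symm⟩,
        fun ⟨v, hv, hvu, hc⟩ => ⟨hvu ▸ hv, fun _ => hc.symm⟩⟩
    rw [hST, valid_iff] at hv
    refine valid_iff.2 ⟨hx, fun t ht h0 => hv.2 t ht ?_⟩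
    rw [q_map, ← h0]
    exact q_congr (fun u hu => by simp [copyLaw, hf, hu])
      (fun u hu => by simp [ofR, copyLevel, hf, hu]) fun _ _ _ _ => rfl
  intro M
  induction M using Finset.induction_on with
  | empty =>
    intro _
    have hmem : ∀ {p : ι × Fin r}, p ∈ S ∅ ↔ p.1 ∈ T := by simp [hS, copySet]
    have hform : ∀ (Z : ι × Fin r → ℝ), (∀ c : Fin r, ∀ v : ι → ℂ, (∃ u ∈ T, v u ≠ 0) →
        formRe T x v < ∑ u ∈ T, Z (u, c) * Complex.normSq (v u)) →
        Valid (S ∅) (copyLaw ∅) Z y := by
      intro Z hZ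
      refine valid_of_form hyh (col := Prod.snd) (fun p _ => by simp [copyLaw]) fun v hv => ?_
      set V : Fin r → ι → ℂ := fun c u =>
        if hu : u ∈ T then v ⟨(u, c), hmem.2 hu⟩ else 0 with hV
      have hsub : ∀ F : ι × Fin r → ℝ, ∑ p : S ∅, F p = ∑ c : Fin r, ∑ u ∈ T, F (u, c) := by
        intro F
        rw [Finset.sum_coe_sort (S ∅) F, show S ∅ = T ×ˢ Finset.univ by
          simp [hS, copySet], Finset.sum_product, Finset.sum_comm]
      have hv' : ∀ p : S ∅, v p = V (p : ι × Fin r).2 (p : ι × Fin r).1 := by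
        intro p
        simp only [hV, dif_pos (hmem.1 p.2)]
      simp only [hv']
      rw [hsub (fun p => Z p * Complex.normSq (V p.2 p.1))]
      have hL : (∑ p : S ∅, ∑ q : S ∅, if (p : ι × Fin r).2 = (q : ι × Fin r).2 then
          (conj (V (p : ι × Fin r).2 (p : ι × Fin r).1) * y p q * V (q : ι × Fin r).2 (q : ι × Fin r).1).re else 0)
          = ∑ c, formRe T x (V c) := by
        rw [hsub (fun p => ∑ q : S ∅, if p.2 = (q : ι × Fin r).2 then
          (conj (V p.2 p.1) * y p q * V (q : ι × Fin r).2 (q : ι × Fin r).1).re else 0)]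
        refine Finset.sum_congr rfl fun c _ => Finset.sum_congr rfl fun u _ => ?_
        rw [hsub (fun q => if c = q.2 then (conj (V c u) * y (u, c) q * V q.2 q.1).re else 0)]
        rw [Finset.sum_eq_single c (fun d _ hd => Finset.sum_eq_zero fun _ _ => if_neg hd.symm)
          (by simp)]
        simp [hy]
      rw [hL]
      obtain ⟨p, hp⟩ := Function.ne_iff.1 hv
      refine Finset.sum_lt_sum (fun c _ => ?_) ⟨(p : ι × Fin r).2, Finset.mem_univ _,
        hZ _ _ ⟨(p : ι × Fin r).1, hmem.1 p.2, by rw [← hv']; simpa using hp⟩⟩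
      by_cases hc : ∃ u ∈ T, V c u ≠ 0
      · exact (hZ c _ hc).le
      · simp only [not_exists, not_and, not_not] at hc
        rw [formRe, Finset.sum_eq_zero, Finset.sum_eq_zero]
        · intro u hu; simp [hc u hu]
        · intro u hu; exact Finset.sum_eq_zero fun b _ => by simp [hc u hu]
    have hpos : ∀ v : ι → ℂ, (∃ u ∈ T, v u ≠ 0) → 0 < ∑ u ∈ T, Complex.normSq (v u) :=
      fun v ⟨u, hu, hne⟩ => Finset.sum_pos' (fun _ _ => Complex.normSq_nonneg _)
        ⟨u, hu, Complex.normSq_pos.2 hne⟩
    have hval : Valid (S ∅) (copyLaw ∅) (copyLevel ∅ w a) y := by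
      refine hform _ fun c v hv => ?_
      simp only [copyLevel, Finset.notMem_empty, if_false, ← Finset.mul_sum]
      have := le_abs_self (formRe T x v)
      nlinarith [hbd v, hpos v hv]
    refine ⟨hval, fun k hk _ => ?_⟩
    have hlaw := copyLaw_isLaw (S ∅) (∅ : Finset ι)
    have hval' : Valid (S ∅) (copyLaw ∅) (Function.update (copyLevel ∅ w a) k e) y := by
      refine hform _ fun c v hv => ?_
      rcases eq_or_ne c k.2 with rfl | hne
      · rw [← Finset.add_sum_erase T _ (hmem.1 hk)]
        have h1 : ∀ u ∈ T.erase k.1,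
            Function.update (copyLevel ∅ w a) k e (u, k.2) * Complex.normSq (v u)
              = a * Complex.normSq (v u) := fun u hu => by
          rw [Function.update_of_ne]
          · simp [copyLevel]
          · intro hc; exact Finset.ne_of_mem_erase hu (congrArg Prod.fst hc)
        rw [Finset.sum_congr rfl h1, ← Finset.mul_sum, Function.update_self]
        set n' := ∑ u ∈ T.erase k.1, Complex.normSq (v u) with hn'
        have he0 : 0 < e := by positivity
        rcases eq_or_lt_of_le (Finset.sum_nonneg fun u (_ : u ∈ T.erase k.1) =>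
            Complex.normSq_nonneg (v u)) with h0 | h0
        · rw [← hn'] at h0
          have hz : ∀ u ∈ T.erase k.1, v u = 0 := fun u hu => Complex.normSq_eq_zero.1
            ((Finset.sum_eq_zero_iff_of_nonneg fun _ _ => Complex.normSq_nonneg _).1 h0.symm u hu)
          have hf : formRe T x v = 0 := by
            refine Finset.sum_eq_zero fun i hi => Finset.sum_eq_zero fun b hb => ?_
            rcases eq_or_ne i k.1 with rfl | hia
            · rcases eq_or_ne b k.1 with rfl | hb'
              · simp [hd k.1 hb]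
              · simp [hz b (Finset.mem_erase.2 ⟨hb', hb⟩)]
            · simp [hz i (Finset.mem_erase.2 ⟨hia, hi⟩)]
          obtain ⟨u, hu, hne⟩ := hv
          have huk : u = k.1 := by
            by_contra hne'
            exact hne (hz u (Finset.mem_erase.2 ⟨hne', hu⟩))
          rw [hf, ← h0, mul_zero, add_zero]
          exact mul_pos he0 (Complex.normSq_pos.2 (huk ▸ hne))
        · rw [← hn'] at h0
          have := formRe_le (hmem.1 hk) (hd _ (hmem.1 hk)) hbd he0 v
          rw [← hn'] at this
          have h2 : 1 + 2 / e < a := by rw [he, div_div_eq_mul_div]; linarith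
          nlinarith [mul_lt_mul_of_pos_right h2 h0]
      · have h1 : ∀ u ∈ T, Function.update (copyLevel ∅ w a) k e (u, c) * Complex.normSq (v u)
            = a * Complex.normSq (v u) := fun u _ => by
          rw [Function.update_of_ne]
          · simp [copyLevel]
          · intro hc; exact hne (congrArg Prod.snd hc)
        rw [Finset.sum_congr rfl h1, ← Finset.mul_sum]
        have := le_abs_self (formRe T x v)
        nlinarith [hbd v, hpos v hv]
    have hq := hval'.pos hlaw
    rw [qR_update hk hlaw e] at hq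
    have h3 := qR_update (Z := copyLevel ∅ w a) (x := y) hk hlaw (copyLevel ∅ w a k)
    rw [Function.update_eq_self] at h3
    simp only [copyLevel, Finset.notMem_empty, if_false] at h3
    rw [h3]
    linarith
  | @insert l M hlM ih =>
    intro hM
    have hlT : l ∈ T := hM (Finset.mem_insert_self _ _)
    obtain ⟨hv, hbar⟩ := ih ((Finset.subset_insert _ _).trans hM)
    set g := copyLaw (r := r) M
    set Z := copyLevel (r := r) M w a
    set g' := copyLaw (r := r) (insert l M)
    set Z' := copyLevel (r := r) (insert l M) w a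
    have hlaw : IsLaw (S M) g := copyLaw_isLaw _ _
    have hlaw' : IsLaw (S (insert l M)) g' := copyLaw_isLaw _ _
    set K : Finset (ι × Fin r) := Finset.univ.image fun c => (l, c) with hK
    have hKm : ∀ {p : ι × Fin r}, p ∈ K ↔ p.1 = l := by
      intro p
      simp only [hK, Finset.mem_image, Finset.mem_univ, true_and]
      exact ⟨fun ⟨c, hc⟩ => hc ▸ rfl, fun h => ⟨p.2, by rw [← h]⟩⟩
    have hinj : Function.Injective fun c : Fin r => (l, c) := fun _ _ h => (Prod.ext_iff.1 h).2
    have hKc : K.card = r := by
      rw [hK, Finset.card_image_of_injective _ hinj, Finset.card_univ, Fintype.card_fin]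
    have hKS : K ⊆ S M := fun p hp => by simp [hS, copySet, hKm.1 hp, hlT, hlM]
    set U := S M \ K with hU
    have hS' : S (insert l M) = insert (l, 0) U := by
      ext ⟨u, c⟩
      simp only [hS, hU, copySet, Finset.mem_filter, Finset.mem_product, Finset.mem_univ, and_true,
        Finset.mem_insert, Finset.mem_sdiff, hKm, Prod.mk.injEq]
      rcases eq_or_ne u l with rfl | hne <;> simp [*]
    have hC : Copies (S M) K g Z y a Prod.snd :=
      { law := hlaw
        herm := hyh
        sub := hKS
        pure := fun p hp => by simp [g, copyLaw, hKm.1 hp, hlM]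
        inj := fun p hp q hq h => Prod.ext ((hKm.1 hp).trans (hKm.1 hq).symm) h
        diag := fun p hp => by simp [hy, hd l hlT, hKm.1 hp]
        level := fun p hp => by simp [Z, copyLevel, hKm.1 hp, hlM]
        apos := ha0
        valid := hv }
    have hA : 0 < qR U g Z y := hC.pos _ Finset.sdiff_subset
    have hg : ∀ p ∈ U, g' p = g p ∧ Z' p = Z p := by
      intro p hp
      have : p.1 ≠ l := fun h => (Finset.mem_sdiff.1 hp).2 (hKm.2 h)
      simp [g, g', Z, Z', copyLaw, copyLevel, this]
    have hcopy : ∀ W ⊆ U, qR (insert (l, 0) W) g' Z' y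
        = (r : ℝ)⁻¹ * ∑ c, qR (insert (l, c) W) g Z y + (w - a) * qR W g Z y := by
      intro W hW
      have hWl : ∀ p ∈ W, p.1 ≠ l := fun p hp h => (Finset.mem_sdiff.1 (hW hp)).2 (hKm.2 h)
      have hnot : ∀ c : Fin r, (l, c) ∉ W := fun c h => hWl _ h rfl
      have hlin : qR (insert (l, 0) W) g' Z' y = ∑ c : Fin r, (r : ℝ)⁻¹ *
          qR (insert (l, 0) W) (pure g' (l, 0) c) Z' y := by
        simp only [qR]
        rw [q_linear (Finset.mem_insert_self _ _), Complex.re_sum]
        simp [g', copyLaw]
      have hpure : ∀ c : Fin r, qR (insert (l, 0) W) (pure g' (l, 0) c) Z' y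
          = qR (insert (l, c) W) g Z y + (w - a) * qR W g Z y := by
        intro c
        set f := (Equiv.swap ((l, c) : ι × Fin r) (l, 0)).toEmbedding
        have hf0 : f (l, c) = (l, 0) := Equiv.swap_apply_left _ _
        have hfp : ∀ p ∈ W, f p = p := fun p hp => Equiv.swap_apply_of_ne_of_ne
          (fun h => hnot c (h ▸ hp)) (fun h => hnot 0 (h ▸ hp))
        have hfst : ∀ p, (f p).1 = p.1 := fun p => by
          simp only [f, Equiv.coe_toEmbedding, Equiv.swap_apply_def]
          split_ifs <;> simp [*]
        have hmap : insert (l, 0) W = (insert (l, c) W).map f := by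
          rw [Finset.map_insert, hf0]
          congr 1
          ext p
          simp only [Finset.mem_map]
          exact ⟨fun hp => ⟨p, hp, hfp p hp⟩, fun ⟨q, hq, hqp⟩ => by rwa [← hqp, hfp q hq]⟩
        have hsub : insert (l, c) W ⊆ S M := Finset.insert_subset (hKS (hKm.2 rfl))
          (hW.trans Finset.sdiff_subset)
        rw [hmap, qR_map]
        have h1 : qR (insert (l, c) W) (fun p => pure g' (l, 0) c (f p)) (fun p => Z' (f p))
            (fun p q => y (f p) (f q))
            = qR (insert (l, c) W) g (Function.update Z (l, c) w) y := by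
          simp only [qR]
          congr 1
          refine q_congr (fun p hp => ?_) (fun p hp => ?_) fun p _ q _ => by simp [hy, hfst]
          · rcases Finset.mem_insert.1 hp with rfl | hp
            · simp [hf0, Local.pure, g, copyLaw, hlM]
            · have hne : p ≠ (l, 0) := fun h => hnot 0 (h ▸ hp)
              simp [hfp p hp, Local.pure, hne, (hg p (hW hp)).1]
          · rcases Finset.mem_insert.1 hp with rfl | hp
            · simp [hf0, ofR, Z', copyLevel]
            · have hne : p ≠ (l, c) := fun h => hnot c (h ▸ hp)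
              simp [hfp p hp, ofR, hne, (hg p (hW hp)).2]
        have h2 := qR_update (Z := Z) (x := y) (Finset.mem_insert_self (l, c) W)
          (hlaw.mono hsub) w
        have h3 := qR_update (Z := Z) (x := y) (Finset.mem_insert_self (l, c) W)
          (hlaw.mono hsub) (Z (l, c))
        rw [Function.update_eq_self, Finset.erase_insert (hnot c)] at h3
        rw [Finset.erase_insert (hnot c)] at h2
        have hZl : Z (l, c) = a := by simp [Z, copyLevel, hlM]
        rw [h1, h2, h3, hZl]
        ring
      simp only [hlin, hpure, mul_add, Finset.sum_add_distrib, Finset.mul_sum]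
      rw [← Finset.sum_mul, sum_uniform, one_mul]
    obtain ⟨m, hm⟩ := Nat.exists_eq_add_of_le' (show 2 ≤ r by omega)
    have hV : ∀ c : Fin r, (a - e) * qR U g Z y ≤ qR (insert (l, c) U) g Z y := by
      intro c
      have hk : ((l, c) : ι × Fin r) ∈ K := hKm.2 rfl
      have hC' := hC.mono (K' := K.erase (l, c)) (Finset.erase_subset _ _) subset_rfl
        ((Finset.erase_subset _ _).trans hKS)
      have hcard : (K.erase (l, c)).card = m + 1 := by
        rw [Finset.card_erase_of_mem hk, hKc, hm]; omega
      have h := hC'.ratio_ge (hKS hk) (Finset.notMem_erase _ _) hcard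
      have e1 : S M \ K.erase (l, c) = insert (l, c) U := by
        ext p
        rcases eq_or_ne p (l, c) with rfl | hne
        · simp [hKS hk]
        · simp [hU, hne]
      have e2 : (S M).erase (l, c) \ K.erase (l, c) = U := by
        ext p
        rcases eq_or_ne p (l, c) with rfl | hne
        · simp [hU, hk]
        · simp [hU, hne]
      dsimp only at h
      rw [e1, e2] at h
      obtain ⟨h0, h1⟩ := h
      have hVpos : 0 < qR (insert (l, c) U) g Z y :=
        e1 ▸ hC.pos _ Finset.sdiff_subset
      have hTpos : 0 < qR (S M) g Z y := hC.pos _ subset_rfl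
      have h2 : qR U g Z y / qR (insert (l, c) U) g Z y
          ≤ qR ((S M).erase (l, c)) g Z y / qR (S M) g Z y := by
        have := div_nonneg (div_nonneg h0 hVpos.le) ha0.le
        linarith
      have h3 := hbar (l, c) (hKS hk) hlM
      have hae : 0 < a - e := by
        have : e ≤ 1 := by rw [he, div_le_one ha0]; linarith
        linarith
      have h4 : qR ((S M).erase (l, c)) g Z y / qR (S M) g Z y ≤ 1 / (a - e) := by
        rw [div_le_div_iff₀ hTpos hae]; linarith
      have h5 := h2.trans h4
      rw [div_le_div_iff₀ hVpos hae] at h5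
      linarith
    have hT' : a / r * qR U g Z y ≤ qR (insert (l, 0) U) g' Z' y := by
      rw [hcopy U subset_rfl]
      have h1 : (a - e) * qR U g Z y ≤ (r : ℝ)⁻¹ * ∑ c, qR (insert (l, c) U) g Z y := by
        calc (a - e) * qR U g Z y = ∑ _c : Fin r, (r : ℝ)⁻¹ * ((a - e) * qR U g Z y) := by
              rw [← Finset.sum_mul, sum_uniform, one_mul]
          _ ≤ _ := by
              rw [Finset.mul_sum]
              exact Finset.sum_le_sum fun c _ => mul_le_mul_of_nonneg_left (hV c) (by positivity)
      have h2 : (a / r) * qR U g Z y = (a - e) * qR U g Z y + (w - a) * qR U g Z y := by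
        rw [hwe]; ring
      linarith
    have hT'pos : 0 < qR (insert (l, 0) U) g' Z' y :=
      lt_of_lt_of_le (mul_pos (by positivity) hA) hT'
    have hUl : ((l, 0) : ι × Fin r) ∉ U := fun h => (Finset.mem_sdiff.1 h).2 (hKm.2 rfl)
    have hU' : Valid U g' Z' y := (valid_congr (fun p hp => (hg p hp).1.symm)
      fun p hp => (hg p hp).2.symm).1 (hv.subset hlaw Finset.sdiff_subset)
    refine ⟨?_, fun k hk hkM => ?_⟩
    · rw [hS'] at hlaw' ⊢
      rw [valid_iff_erase (Finset.mem_insert_self _ _) hlaw', Finset.erase_insert hUl]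
      refine ⟨hU', ?_⟩
      have hpU := hU'.pos (hlaw'.mono (Finset.subset_insert _ _))
      have := qR_eq (Z := Z') (x := y) (Finset.mem_insert_self ((l, 0) : ι × Fin r) U) hlaw'
        (by rw [Finset.erase_insert hUl]; exact hpU.ne')
      rw [Finset.erase_insert hUl] at this
      rw [this] at hT'pos
      linarith [(mul_pos_iff_of_pos_left hpU).1 hT'pos]
    · rw [Finset.mem_insert, not_or] at hkM
      have hkK : k ∉ K := fun h => hkM.1 (hKm.1 h)
      rw [hS', Finset.mem_insert] at hk
      have hkU : k ∈ U := hk.resolve_left fun h => hkM.1 (by rw [h])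
      have hkS : k ∈ S M := (Finset.mem_sdiff.1 hkU).1
      obtain ⟨hM0, hge⟩ := hC.ratio_ge hkS hkK (m := m + 1) (by rw [hKc]; omega)
      have e1 : (S M).erase k \ K = U.erase k := Finset.erase_sdiff_comm _ _ _
      have e2 : ∀ c : Fin r, S M \ K.erase (l, c) = insert (l, c) U := fun c => by
        have hlc : ((l, c) : ι × Fin r) ∈ K := hKm.2 rfl
        ext p
        rcases eq_or_ne p (l, c) with rfl | hne
        · simp [hKS hlc]
        · simp [hU, hne]
      have e3 : ∀ c : Fin r,
          (S M).erase k \ K.erase (l, c) = insert (l, c) (U.erase k) := fun c => by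
        have : ((l, c) : ι × Fin r) ≠ k := fun h => hkK (h ▸ hKm.2 rfl)
        rw [Finset.erase_sdiff_comm, e2, Finset.erase_insert_of_ne this]
      have hsum : ∀ F : ι × Fin r → ℝ, ∑ p ∈ K, F p = ∑ c, F (l, c) := fun F => by
        rw [hK, Finset.sum_image fun _ _ _ _ h => hinj h]
      simp only [e1, hsum, e2, e3] at hge hM0
      rw [hS', Finset.erase_insert_of_ne (fun h : (l, (0 : Fin r)) = k => hkM.1 (by rw [← h])),
        hcopy _ (Finset.erase_subset _ _)]
      set A := qR U g Z y
      set c0 := qR (U.erase k) g Z y / A with hc0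
      set Sg := ∑ c, qR (insert (l, c) (U.erase k)) g Z y
      set S₀ := ∑ c, qR (insert (l, c) U) g Z y
      have hP := hC.pos _ subset_rfl
      have hT0 := hcopy U subset_rfl
      set P' := qR (insert (l, 0) U) g' Z' y
      have hid : (r : ℝ)⁻¹ * Sg + (w - a) * qR (U.erase k) g Z y
          = c0 * P' + (r : ℝ)⁻¹ * (Sg - c0 * S₀) := by
        have hc : qR (U.erase k) g Z y = c0 * A := by rw [hc0, div_mul_cancel₀ _ hA.ne']
        rw [hc, hT0]
        ring
      have hk3 := hbar k hkS hkM.2
      have hae : 0 < a - e := by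
        have : e ≤ 1 := by rw [he, div_le_one ha0]; linarith
        linarith
      have hb : c0 + (Sg - c0 * S₀) / A / a ≤ 1 / (a - e) := by
        have : qR ((S M).erase k) g Z y / qR (S M) g Z y ≤ 1 / (a - e) := by
          rw [div_le_div_iff₀ hP hae]; linarith
        linarith
      have h5 : (r : ℝ)⁻¹ * (Sg - c0 * S₀) ≤ (Sg - c0 * S₀) / A / a * P' := by
        have h6 := mul_le_mul_of_nonneg_left hT' (div_nonneg (div_nonneg hM0 hA.le) ha0.le)
        refine le_trans (le_of_eq ?_) h6
        field_simp
      rw [hid]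
      have h7 := mul_le_mul_of_nonneg_right hb hT'pos.le
      rw [add_mul, one_div_mul_eq_div, le_div_iff₀ hae] at h7
      calc (a - e) * (c0 * P' + (r : ℝ)⁻¹ * (Sg - c0 * S₀))
          ≤ (a - e) * (c0 * P' + (Sg - c0 * S₀) / A / a * P') :=
            mul_le_mul_of_nonneg_left (by linarith) hae.le
        _ ≤ P' := by linarith

end start

end Vale.Agent.P078.Local
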